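import Vale.Agent.Lib.P012_helper5.Defs

/-!
# P012c, module T: the divisor-sum trick
-/

namespace Vale.Agent.Lib.P012c

open Finset

theorem trick (B c L : ℕ) (hB : 0 < B) (hc : 0 < c) (D : Finset ℕ) (hne : D.Nonempty)
    (hD : ∀ d ∈ D, d ∣ B) (hS : c ∣ ∑ d ∈ D, d) (hL : ∀ d ∈ D, ∑ d' ∈ D, d' ≤ L * d) :
    ∃ S : Finset ℕ, S.card ≤ D.card ∧ (∀ n ∈ S, 1 ≤ n ∧ n * c ≤ B * L) ∧
      ∑ n ∈ S, (1 / n : ℚ) = c / B := by
  obtain ⟨k, hk⟩ := hS
  have hdpos : ∀ d ∈ D, 0 < d := fun d hd => Nat.pos_of_dvd_of_pos (hD d hd) hB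
  have hSpos : 0 < ∑ d ∈ D, d := Finset.sum_pos hdpos hne
  have hkpos : 0 < k := by
    rcases Nat.eq_zero_or_pos k with h | h
    · rw [h, Nat.mul_zero] at hk
      omega
    · exact h
  have hmul : ∀ d ∈ D, d * (B / d) = B := fun d hd => Nat.mul_div_cancel' (hD d hd)
  have hqpos : ∀ d ∈ D, 0 < B / d := fun d hd =>
    Nat.div_pos (Nat.le_of_dvd hB (hD d hd)) (hdpos d hd)
  have hinj : Set.InjOn (fun d => (B / d) * k) (D : Set ℕ) := by
    intro d hd d' hd' h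
    have h1 : B / d = B / d' := Nat.eq_of_mul_eq_mul_right hkpos h
    have h2 := hmul d hd
    have h3 := hmul d' hd'
    rw [h1] at h2
    have h4 : d * (B / d') = d' * (B / d') := by rw [h2, h3]
    exact Nat.eq_of_mul_eq_mul_right (hqpos d' hd') h4
  refine ⟨D.image (fun d => (B / d) * k), Finset.card_image_le, ?_, ?_⟩
  · intro n hn
    obtain ⟨d, hd, rfl⟩ := Finset.mem_image.mp hn
    refine ⟨Nat.mul_pos (hqpos d hd) hkpos, ?_⟩
    calc B / d * k * c = (B / d) * (c * k) := by ring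
      _ = (B / d) * ∑ d' ∈ D, d' := by rw [hk]
      _ ≤ (B / d) * (L * d) := Nat.mul_le_mul_left _ (hL d hd)
      _ = (d * (B / d)) * L := by ring
      _ = B * L := by rw [hmul d hd]
  · rw [Finset.sum_image hinj]
    have hBq : (B : ℚ) ≠ 0 := by exact_mod_cast hB.ne'
    have hkq : (k : ℚ) ≠ 0 := by exact_mod_cast hkpos.ne'
    have hterm : ∀ d ∈ D, (1 / (((B / d) * k : ℕ) : ℚ)) = (d : ℚ) / ((B : ℚ) * k) := by
      intro d hd
      have h1 : ((d : ℚ)) * ((B / d : ℕ) : ℚ) = B := by exact_mod_cast hmul d hd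
      have h2 : ((B / d : ℕ) : ℚ) ≠ 0 := by exact_mod_cast (hqpos d hd).ne'
      rw [Nat.cast_mul, div_eq_div_iff (mul_ne_zero h2 hkq) (mul_ne_zero hBq hkq), ← h1]
      ring
    rw [Finset.sum_congr rfl hterm, ← Finset.sum_div]
    have h5 : (∑ d ∈ D, (d : ℚ)) = (c : ℚ) * k := by
      rw [← Nat.cast_sum, hk, Nat.cast_mul]
    rw [h5]
    field_simp

end Vale.Agent.Lib.P012c
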