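import Vale.Agent.Lib.P012_helper16.CGoodRepCore
import Vale.Agent.Lib.P012_helper20.CCoverGood

/-!
# P012c, module GR: `good_rep` from the abstract covering statement `CoverAbsStmt`
-/

namespace Vale.Agent.Lib.P012c

open Finset
open Vale.Agent.Lib.P012b

theorem good_rep_of (hC : CoverAbsStmt) (y E K Θ M Z : ℕ) (P A₁ B₁ A₂ B₂ : Finset ℕ)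
    (e₁ e₂ e₃ e₄ : ℕ)
    (hΘ : 1 ≤ Θ) (hy32 : 32 ≤ y) (hyK : 2 ^ 17 * K < y ^ 3)
    (hPp : ∀ p ∈ P, p.Prime) (hPy : ∀ p ∈ P, y < p)
    (hA₁ : ∀ a ∈ A₁, 2 ^ e₁ ≤ a ∧ a < 2 ^ (e₁ + 1)) (hB₁ : ∀ a ∈ B₁, 2 ^ e₂ ≤ a ∧ a < 2 ^ (e₂ + 1))
    (hA₂ : ∀ a ∈ A₂, 2 ^ e₃ ≤ a ∧ a < 2 ^ (e₃ + 1)) (hB₂ : ∀ a ∈ B₂, 2 ^ e₄ ≤ a ∧ a < 2 ^ (e₄ + 1))
    (hdvd : ∀ a ∈ A₁ ∪ B₁ ∪ A₂ ∪ B₂, a ∣ ∏ p ∈ P, p)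
    (hdiv : ∀ a₁ ∈ A₁, ∀ b₁ ∈ B₁, ∀ a₂ ∈ A₂, ∀ b₂ ∈ B₂, a₁ * b₁ * a₂ * b₂ ∣ ∏ p ∈ P, p)
    (hZ : (primorial y) ^ E * Nat.factorial 513 * ∏ p ∈ P, p ∣ Z)
    (hc₁ : Θ ^ 3 ≤ A₁.card ^ 4) (hc₁' : Θ ^ 3 ≤ B₁.card ^ 4)
    (hc₂ : M ^ 3 ≤ A₂.card ^ 4) (hc₂' : M ^ 3 ≤ B₂.card ^ 4)
    (g : ℕ) (hg : Good y E K Θ P A₁ B₁ A₂ B₂ g) (hg1 : 1 ≤ g) (hgM : g < M)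
    (B : ℕ) (hZB : Z ∣ B) (hB : 0 < B) :
    ∃ S : Finset ℕ, S.card ≤ 16 ∧ (∀ n ∈ S, 1 ≤ n ∧ n * g ≤ B * 512) ∧
      ∑ n ∈ S, (1 / n : ℚ) = g / B :=
  good_rep_core y E K Θ M Z P A₁ B₁ A₂ B₂ e₁ e₂ e₃ e₄ hy32 hyK hPp hPy hA₁ hB₁ hA₂ hB₂ hdvd hdiv hZ
    hc₂ hc₂'
    (fun Q h1 h2 h3 h4 h5 h6 h7 =>
      cover_good_of hC y Θ A₁ B₁ A₂ B₂ Q hΘ h1 h2 hy32 h3 h4 h5 hc₁ hc₁' h6 h7)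
    g hg hg1 hgM B hZB hB

end Vale.Agent.Lib.P012c
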