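import Vale.Agent.Lib.P012_helper16.CTrick

/-!
# P012c, module GR (core): good numerators are represented by sixteen unit fractions

`good_rep_core` is the statement of `good_rep` with the conclusion of `cover_good` as a hypothesis.
-/

namespace Vale.Agent.Lib.P012c

open Finset
open Vale.Agent.Lib.P012b

/-- splitting `g` into its `y`-smooth part and the (squarefree) product of its large primes. -/
theorem good_split (y E g : ℕ) (hg1 : 1 ≤ g)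
    (h1 : ∀ n, 2 ≤ n → ¬ n ^ (E + 1) ∣ g) (h2 : ∀ n, y < n → ¬ n ^ 2 ∣ g) :
    ∃ s : ℕ, 0 < s ∧ s ∣ (primorial y) ^ E ∧
      g = s * ∏ q ∈ g.primeFactors.filter (fun q => y < q), q := by
  have hg0 : g ≠ 0 := by omega
  refine ⟨∏ p ∈ g.primeFactors.filter (fun q => ¬ y < q), p ^ g.factorization p, ?_, ?_, ?_⟩
  · apply Finset.prod_pos
    intro p hp
    have hpp : p.Prime := Nat.prime_of_mem_primeFactors (Finset.mem_filter.mp hp).1
    exact pow_pos hpp.pos _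
  · have hsub : g.primeFactors.filter (fun q => ¬ y < q) ⊆
        (Finset.range (y + 1)).filter Nat.Prime := by
      intro p hp
      rw [Finset.mem_filter] at hp ⊢
      exact ⟨Finset.mem_range.mpr (by omega), Nat.prime_of_mem_primeFactors hp.1⟩
    calc ∏ p ∈ g.primeFactors.filter (fun q => ¬ y < q), p ^ g.factorization p
        ∣ ∏ p ∈ g.primeFactors.filter (fun q => ¬ y < q), p ^ E := by
          apply Finset.prod_dvd_prod_of_dvd
          intro p hp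
          apply pow_dvd_pow
          have hpp : p.Prime := Nat.prime_of_mem_primeFactors (Finset.mem_filter.mp hp).1
          by_contra hcon
          exact h1 p hpp.two_le ((hpp.pow_dvd_iff_le_factorization hg0).mpr (not_le.mp hcon))
      _ = (∏ p ∈ g.primeFactors.filter (fun q => ¬ y < q), p) ^ E := Finset.prod_pow _ _ _
      _ ∣ (primorial y) ^ E := by
          apply pow_dvd_pow_of_dvd
          unfold primorial
          exact Finset.prod_dvd_prod_of_subset _ _ _ hsub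
  · have hfac : ∏ p ∈ g.primeFactors, p ^ g.factorization p = g := by
      have h := Nat.prod_factorization_pow_eq_self hg0
      rwa [Finsupp.prod, Nat.support_factorization] at h
    have hsplit := Finset.prod_filter_mul_prod_filter_not g.primeFactors (fun q => y < q)
      (fun p => p ^ g.factorization p)
    have hQ : ∏ p ∈ g.primeFactors.filter (fun q => y < q), p ^ g.factorization p
        = ∏ q ∈ g.primeFactors.filter (fun q => y < q), q := by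
      apply Finset.prod_congr rfl
      intro q hq
      rw [Finset.mem_filter] at hq
      have hqp := Nat.prime_of_mem_primeFactors hq.1
      have hle : g.factorization q ≤ 1 := by
        by_contra hcon
        exact h2 q hq.2 ((hqp.pow_dvd_iff_le_factorization hg0).mpr (not_le.mp hcon))
      have hge : 1 ≤ g.factorization q :=
        (hqp.dvd_iff_one_le_factorization hg0).mp (Nat.dvd_of_mem_primeFactors hq.1)
      have h3 : g.factorization q = 1 := le_antisymm hle hge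
      rw [h3, pow_one]
    rw [hQ, hfac] at hsplit
    rw [mul_comm]
    exact hsplit.symm

/-- from a solution of the congruence to the unit fractions. -/
theorem rep_of_cover (y E Z : ℕ) (P : Finset ℕ) (s m g e : ℕ) (x : Fin 16 → ℕ)
    (hy32 : 32 ≤ y) (hPp : ∀ p ∈ P, p.Prime) (hPy : ∀ p ∈ P, y < p)
    (hs0 : 0 < s) (hsdvd : s ∣ (primorial y) ^ E) (hgs : g = s * m) (hg1 : 1 ≤ g)
    (hx : ∀ i, 2 ^ e ≤ x i ∧ x i ≤ 2 ^ (e + 4)) (hxdvd : ∀ i, x i ∣ ∏ p ∈ P, p)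
    (hm : m ∣ ∑ i : Fin 16, (17 + (i : ℕ)) * x i)
    (hZ : (primorial y) ^ E * Nat.factorial 513 * ∏ p ∈ P, p ∣ Z)
    (B : ℕ) (hZB : Z ∣ B) (hB : 0 < B) :
    ∃ S : Finset ℕ, S.card ≤ 16 ∧ (∀ n ∈ S, 1 ≤ n ∧ n * g ≤ B * 512) ∧
      ∑ n ∈ S, (1 / n : ℚ) = g / B := by
  have hxcop : ∀ i (k : ℕ), 1 ≤ k → k ≤ 32 → Nat.Coprime k (x i) := by
    intro i k hk1 hk32
    apply Nat.Coprime.coprime_dvd_right (hxdvd i)
    apply Nat.Coprime.prod_right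
    intro p hp
    apply Nat.Coprime.symm
    apply (Nat.Prime.coprime_iff_not_dvd (hPp p hp)).mpr
    intro h
    have h1 := Nat.le_of_dvd hk1 h
    have h2 := hPy p hp
    omega
  let d : Fin 16 → ℕ := fun i => s * (17 + (i : ℕ)) * x i
  have hd : ∀ i, d i = s * (17 + (i : ℕ)) * x i := fun _ => rfl
  have hdinj : Function.Injective d := by
    intro i j hij
    have h1 : (17 + (i : ℕ)) * x i = (17 + (j : ℕ)) * x j := by
      have h0 : s * ((17 + (i : ℕ)) * x i) = s * ((17 + (j : ℕ)) * x j) := by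
        rw [← mul_assoc, ← mul_assoc]
        exact hij
      exact Nat.eq_of_mul_eq_mul_left hs0 h0
    have hi := i.2
    have hj := j.2
    have h2 : (17 + (i : ℕ)) ∣ (17 + (j : ℕ)) := by
      have h0 : (17 + (i : ℕ)) ∣ (17 + (j : ℕ)) * x j := ⟨x i, h1.symm⟩
      exact Nat.Coprime.dvd_of_dvd_mul_right (hxcop j _ (by omega) (by omega)) h0
    have h3 : (17 + (j : ℕ)) ∣ (17 + (i : ℕ)) := by
      have h0 : (17 + (j : ℕ)) ∣ (17 + (i : ℕ)) * x i := ⟨x j, h1⟩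
      exact Nat.Coprime.dvd_of_dvd_mul_right (hxcop i _ (by omega) (by omega)) h0
    have h4 := Nat.dvd_antisymm h2 h3
    exact Fin.ext (by omega)
  have hsum : ∑ d' ∈ Finset.univ.image d, d' = ∑ i, d i :=
    Finset.sum_image (fun i _ j _ h => hdinj h)
  have hsum2 : ∑ i, d i = s * ∑ i : Fin 16, (17 + (i : ℕ)) * x i := by
    rw [Finset.mul_sum]
    apply Finset.sum_congr rfl
    intro i _
    rw [hd, mul_assoc]
  have hup : ∀ i, d i ≤ s * 32 * 2 ^ (e + 4) := by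
    intro i
    have hi := i.2
    exact Nat.mul_le_mul (Nat.mul_le_mul_left s (by omega)) (hx i).2
  have hlo : ∀ i, s * 17 * 2 ^ e ≤ d i := by
    intro i
    exact Nat.mul_le_mul (Nat.mul_le_mul_left s (by omega)) (hx i).1
  have htot : ∑ i, d i ≤ 16 * (s * 32 * 2 ^ (e + 4)) := by
    calc ∑ i, d i ≤ ∑ _i : Fin 16, s * 32 * 2 ^ (e + 4) := Finset.sum_le_sum (fun i _ => hup i)
      _ = 16 * (s * 32 * 2 ^ (e + 4)) := by simp
  obtain ⟨S, hS1, hS2, hS3⟩ := trick B g 512 hB hg1 (Finset.univ.image d)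
    (Finset.image_nonempty.mpr Finset.univ_nonempty)
    (by
      intro d' hd'
      obtain ⟨i, _, rfl⟩ := Finset.mem_image.mp hd'
      have hi := i.2
      have h1 : s * (17 + (i : ℕ)) * x i ∣ (primorial y) ^ E * Nat.factorial 513 * ∏ p ∈ P, p :=
        Nat.mul_dvd_mul (Nat.mul_dvd_mul hsdvd (Nat.dvd_factorial (by omega) (by omega))) (hxdvd i)
      exact (h1.trans hZ).trans hZB)
    (by
      rw [hsum, hsum2, hgs]
      exact Nat.mul_dvd_mul_left s hm)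
    (by
      intro d' hd'
      obtain ⟨i, _, rfl⟩ := Finset.mem_image.mp hd'
      rw [hsum]
      have h1 := hlo i
      have h2 : 16 * (s * 32 * 2 ^ (e + 4)) ≤ 512 * (s * 17 * 2 ^ e) := by
        rw [pow_add]
        have h3 : 16 * (s * 32 * (2 ^ e * 2 ^ 4)) = 8192 * (s * 2 ^ e) := by ring
        have h4 : 512 * (s * 17 * 2 ^ e) = 8704 * (s * 2 ^ e) := by ring
        rw [h3, h4]
        exact Nat.mul_le_mul_right _ (by norm_num)
      calc ∑ i, d i ≤ 16 * (s * 32 * 2 ^ (e + 4)) := htot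
        _ ≤ 512 * (s * 17 * 2 ^ e) := h2
        _ ≤ 512 * d i := Nat.mul_le_mul_left _ h1)
  refine ⟨S, hS1.trans ?_, hS2, hS3⟩
  calc (Finset.univ.image d).card ≤ (Finset.univ : Finset (Fin 16)).card := Finset.card_image_le
    _ = 16 := by simp

theorem good_rep_core (y E K Θ M Z : ℕ) (P A₁ B₁ A₂ B₂ : Finset ℕ) (e₁ e₂ e₃ e₄ : ℕ)
    (hy32 : 32 ≤ y) (hyK : 2 ^ 17 * K < y ^ 3)
    (hPp : ∀ p ∈ P, p.Prime) (hPy : ∀ p ∈ P, y < p)
    (hA₁ : ∀ a ∈ A₁, 2 ^ e₁ ≤ a ∧ a < 2 ^ (e₁ + 1)) (hB₁ : ∀ a ∈ B₁, 2 ^ e₂ ≤ a ∧ a < 2 ^ (e₂ + 1))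
    (hA₂ : ∀ a ∈ A₂, 2 ^ e₃ ≤ a ∧ a < 2 ^ (e₃ + 1)) (hB₂ : ∀ a ∈ B₂, 2 ^ e₄ ≤ a ∧ a < 2 ^ (e₄ + 1))
    (hdvd : ∀ a ∈ A₁ ∪ B₁ ∪ A₂ ∪ B₂, a ∣ ∏ p ∈ P, p)
    (hdiv : ∀ a₁ ∈ A₁, ∀ b₁ ∈ B₁, ∀ a₂ ∈ A₂, ∀ b₂ ∈ B₂, a₁ * b₁ * a₂ * b₂ ∣ ∏ p ∈ P, p)
    (hZ : (primorial y) ^ E * Nat.factorial 513 * ∏ p ∈ P, p ∣ Z)
    (hc₂ : M ^ 3 ≤ A₂.card ^ 4) (hc₂' : M ^ 3 ≤ B₂.card ^ 4)
    (hcov : ∀ Q : Finset ℕ, (∀ q ∈ Q, q.Prime) → (∀ q ∈ Q, y < q) → 2 ^ 17 * Q.card < y ^ 3 →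
      (∀ q ∈ Q, ∀ a ∈ A₁ ∪ B₁ ∪ A₂ ∪ B₂, ¬ q ∣ a) →
      (∀ Q' ⊆ Q, Q'.Nonempty →
        NB Q' A₁ ∧ NB Q' B₁ ∧ (Θ < ∏ q ∈ Q', q → NB Q' A₂ ∧ NB Q' B₂)) →
      (∏ q ∈ Q, q) ^ 3 ≤ A₂.card ^ 4 → (∏ q ∈ Q, q) ^ 3 ≤ B₂.card ^ 4 →
      ∃ f : Fin 16 → ℕ × ℕ × ℕ × ℕ,
        (∀ i, (f i).1 ∈ A₁ ∧ (f i).2.1 ∈ B₁ ∧ (f i).2.2.1 ∈ A₂ ∧ (f i).2.2.2 ∈ B₂) ∧
        (∏ q ∈ Q, q) ∣ ∑ i : Fin 16,
          (17 + (i : ℕ)) * ((f i).1 * (f i).2.1 * (f i).2.2.1 * (f i).2.2.2))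
    (g : ℕ) (hg : Good y E K Θ P A₁ B₁ A₂ B₂ g) (hg1 : 1 ≤ g) (hgM : g < M)
    (B : ℕ) (hZB : Z ∣ B) (hB : 0 < B) :
    ∃ S : Finset ℕ, S.card ≤ 16 ∧ (∀ n ∈ S, 1 ≤ n ∧ n * g ≤ B * 512) ∧
      ∑ n ∈ S, (1 / n : ℚ) = g / B := by
  obtain ⟨hg_pow, hg_sq, hg_card, hg_P, hg_NB⟩ := hg
  obtain ⟨s, hs0, hsdvd, hgs⟩ := good_split y E g hg1 hg_pow hg_sq
  have hQsub : g.primeFactors.filter (fun q => y < q) ⊆ g.primeFactors := Finset.filter_subset _ _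
  have hQp : ∀ q ∈ g.primeFactors.filter (fun q => y < q), q.Prime :=
    fun q hq => Nat.prime_of_mem_primeFactors (hQsub hq)
  have hQy : ∀ q ∈ g.primeFactors.filter (fun q => y < q), y < q :=
    fun q hq => (Finset.mem_filter.mp hq).2
  have hQcard : 2 ^ 17 * (g.primeFactors.filter (fun q => y < q)).card < y ^ 3 :=
    lt_of_le_of_lt (Nat.mul_le_mul_left _ ((Finset.card_le_card hQsub).trans hg_card)) hyK
  have hcop : ∀ q ∈ g.primeFactors.filter (fun q => y < q),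
      ∀ a ∈ A₁ ∪ B₁ ∪ A₂ ∪ B₂, ¬ q ∣ a := by
    intro q hq a ha hqa
    have h1 : q ∣ ∏ p ∈ P, p := hqa.trans (hdvd a ha)
    obtain ⟨p, hp, hqp⟩ := (Prime.dvd_finsetProd_iff (hQp q hq).prime _).mp h1
    have h2 : q = p := (Nat.prime_dvd_prime_iff_eq (hQp q hq) (hPp p hp)).mp hqp
    subst h2
    exact hg_P q hp (Nat.dvd_of_mem_primeFactors (hQsub hq))
  have hprodle : ∏ q ∈ g.primeFactors.filter (fun q => y < q), q ≤ g :=
    le_of_le_of_eq (Nat.le_mul_of_pos_left _ hs0) hgs.symm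
  obtain ⟨f, hf, hfdvd⟩ := hcov _ hQp hQy hQcard hcop
    (fun Q' hQ' hne => hg_NB Q' (hQ'.trans hQsub) hne (fun q hq => hQy q (hQ' hq)))
    ((Nat.pow_le_pow_left (hprodle.trans hgM.le) 3).trans hc₂)
    ((Nat.pow_le_pow_left (hprodle.trans hgM.le) 3).trans hc₂')
  refine rep_of_cover y E Z P s _ g (e₁ + e₂ + e₃ + e₄)
    (fun i => (f i).1 * (f i).2.1 * (f i).2.2.1 * (f i).2.2.2) hy32 hPp hPy hs0 hsdvd hgs hg1
    ?_ (fun i => hdiv _ (hf i).1 _ (hf i).2.1 _ (hf i).2.2.1 _ (hf i).2.2.2) hfdvd hZ B hZB hB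
  intro i
  obtain ⟨h1, h2, h3, h4⟩ := hf i
  have a1 := hA₁ _ h1
  have a2 := hB₁ _ h2
  have a3 := hA₂ _ h3
  have a4 := hB₂ _ h4
  constructor
  · calc 2 ^ (e₁ + e₂ + e₃ + e₄) = 2 ^ e₁ * 2 ^ e₂ * 2 ^ e₃ * 2 ^ e₄ := by
          rw [pow_add, pow_add, pow_add]
      _ ≤ (f i).1 * (f i).2.1 * (f i).2.2.1 * (f i).2.2.2 :=
          Nat.mul_le_mul (Nat.mul_le_mul (Nat.mul_le_mul a1.1 a2.1) a3.1) a4.1
  · calc (f i).1 * (f i).2.1 * (f i).2.2.1 * (f i).2.2.2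
        ≤ 2 ^ (e₁ + 1) * 2 ^ (e₂ + 1) * 2 ^ (e₃ + 1) * 2 ^ (e₄ + 1) :=
          Nat.mul_le_mul (Nat.mul_le_mul (Nat.mul_le_mul a1.2.le a2.2.le) a3.2.le) a4.2.le
      _ = 2 ^ (e₁ + e₂ + e₃ + e₄ + 4) := by
          rw [← pow_add, ← pow_add, ← pow_add]
          congr 1
          omega

end Vale.Agent.Lib.P012c
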